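import Vale.Agent.P160R.Defs
import Vale.Agent.P160R.Cover.Gram

/-!
# Elementary linear algebra and asymptotics for the atom bound
-/

namespace Vale.Agent.P160R

open Matrix Finset

variable {ι : Type} [Fintype ι] [DecidableEq ι]

/-- A new column multiplies the Gram determinant by at most its squared length. -/
lemma det_gram_add_col {κ : Type} [Fintype κ] [DecidableEq κ] (X : Matrix ι κ ℝ)
    (v : Matrix ι (Fin 1) ℝ) (hX : Function.Injective X.mulVec) :
    ((fromCols X v)ᵀ * fromCols X v).det ≤ (Xᵀ * X).det * ∑ i, v i 0 ^ 2 := by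
  have hA : (Xᵀ * (1 : Matrix ι ι ℝ) * X).PosDef := by
    have := PosDef.one.conjTranspose_mul_mul_same hX
    rwa [conjTranspose_eq_transpose_of_trivial] at this
  have h := det_gram_fromCols (1 : Matrix ι ι ℝ) isHermitian_one X v hA
  simp only [Matrix.mul_one] at h hA
  rw [h]
  refine mul_le_mul_of_nonneg_left ?_ hA.det_pos.le
  rw [det_unique, Fin.default_eq_zero]
  have h0 : 0 ≤ ((Xᵀ * v)ᴴ * (Xᵀ * X)⁻¹ * (Xᵀ * v)) 0 0 :=
    (hA.inv.posSemidef.conjTranspose_mul_mul_same (Xᵀ * v)).diag_nonneg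
  have h1 : (vᵀ * v) 0 0 = ∑ i, v i 0 ^ 2 := by simp [Matrix.mul_apply, pow_two]
  rw [Matrix.sub_apply]
  linarith

/-- Added columns multiply the Gram determinant by at most the product of their squared
lengths. -/
lemma det_gram_add_cols {κ : Type} [Fintype κ] [DecidableEq κ] (j : ℕ) (V : Matrix ι (Fin j) ℝ)
    (X : Matrix ι κ ℝ) (h : Function.Injective (fromCols X V).mulVec) :
    ((fromCols X V)ᵀ * fromCols X V).det ≤ (Xᵀ * X).det * ∏ c, ∑ i, V i c ^ 2 := by
  induction j with
  | zero =>
    have e : fromCols X V = X.submatrix id (Equiv.sumEmpty κ (Fin 0)) := by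
      ext i (c | c)
      · rfl
      · exact c.elim0
    have e2 : ((X.submatrix id (Equiv.sumEmpty κ (Fin 0)))ᵀ *
        X.submatrix id (Equiv.sumEmpty κ (Fin 0))) =
        (Xᵀ * X).submatrix (Equiv.sumEmpty κ (Fin 0)) (Equiv.sumEmpty κ (Fin 0)) := by
      ext a b; simp [Matrix.mul_apply]
    rw [e, e2, det_submatrix_equiv_self]
    simp
  | succ j ih =>
    set V' := V.submatrix id Fin.castSucc with hV'
    set v : Matrix ι (Fin 1) ℝ := V.submatrix id fun _ => Fin.last j with hv
    let g : κ ⊕ Fin (j + 1) ≃ (κ ⊕ Fin j) ⊕ Fin 1 :=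
      ((Equiv.refl κ).sumCongr finSumFinEquiv.symm).trans (Equiv.sumAssoc _ _ _).symm
    have e : fromCols X V = (fromCols (fromCols X V') v).submatrix id g := by
      ext i (c | c)
      · rfl
      · refine Fin.lastCases ?_ (fun b => ?_) c
        · simp [g, v]
        · simp [g, V', Fin.castSucc, finSumFinEquiv_symm_apply_castAdd]
    have hi : Function.Injective (fromCols (fromCols X V') v).mulVec := by
      rw [mulVec_injective_iff] at h ⊢
      rw [e] at h
      exact (linearIndependent_equiv g).1 h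
    have hX' : Function.Injective (fromCols X V').mulVec := by
      rw [mulVec_injective_iff] at hi ⊢
      exact hi.comp Sum.inl Sum.inl_injective
    rw [e, transpose_submatrix]
    have e2 : ((fromCols (fromCols X V') v)ᵀ.submatrix g id *
        (fromCols (fromCols X V') v).submatrix id g) =
        ((fromCols (fromCols X V') v)ᵀ * fromCols (fromCols X V') v).submatrix g g := by
      ext a b; rfl
    rw [e2, det_submatrix_equiv_self, Fin.prod_univ_castSucc, ← mul_assoc]
    refine (det_gram_add_col _ v hX').trans ?_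
    exact mul_le_mul_of_nonneg_right (ih V' hX') (sum_nonneg fun i _ => sq_nonneg _)

omit [DecidableEq ι] in
/-- A subspace is determined by at most as many coordinates as its dimension. -/
lemma exists_coords (W : Submodule ℚ (ι → ℚ)) :
    ∃ I : Finset ι, I.card ≤ Module.finrank ℚ W ∧ ∀ z ∈ W, (∀ i ∈ I, z i = 0) → z = 0 := by
  classical
  induction hn : Module.finrank ℚ W using Nat.strong_induction_on generalizing W with
  | _ n ih =>
    by_cases h : W = ⊥
    · exact ⟨∅, by simp, fun z hz _ => by simpa [h] using hz⟩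
    obtain ⟨u, hu, hu0⟩ := Submodule.exists_mem_ne_zero_of_ne_bot h
    obtain ⟨i, hi⟩ := Function.ne_iff.1 hu0
    set W' := W ⊓ LinearMap.ker (LinearMap.proj (R := ℚ) (φ := fun _ : ι => ℚ) i)
    have hlt : W' < W := lt_of_le_of_ne inf_le_left fun he => by
      have h2 : u ∈ W' := he ▸ hu
      exact hi (Submodule.mem_inf.1 h2).2
    have hrk := Submodule.finrank_lt_finrank_of_lt hlt
    obtain ⟨I, hI, hz⟩ := ih _ (hn ▸ hrk) W' rfl
    refine ⟨insert i I, (card_insert_le _ _).trans (by omega), fun z hzW hzI => ?_⟩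
    exact hz z (Submodule.mem_inf.2 ⟨hzW, hzI i (mem_insert_self _ _)⟩)
      fun j hj => hzI j (mem_insert_of_mem hj)

omit [Fintype ι] [DecidableEq ι] in
lemma signVec_injective : Function.Injective (signVec : (ι → Bool) → ι → ℤ) := by
  intro x x' h
  funext i
  have := congrFun h i
  simp only [signVec] at this
  cases hx : x i <;> cases hx' : x' i <;> simp_all

/-- Cube points in few translates of a subspace. -/
lemma card_cube_cover (W : Submodule ℚ (ι → ℚ)) {r : ℕ} (hr : Module.finrank ℚ W ≤ r)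
    (F : Finset (ι → ℤ)) (P : (ι → Bool) → Prop)
    (h : ∀ x, P x → ∃ y ∈ F, (fun i => ((signVec x i - y i : ℤ) : ℚ)) ∈ W) :
    Nat.card {x // P x} ≤ F.card * 2 ^ r := by
  classical
  obtain ⟨I, hI, hz⟩ := exists_coords W
  choose y hy hyW using h
  let f : {x // P x} → F × (I → Bool) := fun x => (⟨y x.1 x.2, hy x.1 x.2⟩, fun i => x.1 i.1)
  have hf : Function.Injective f := by
    intro a b hab
    simp only [f, Prod.mk.injEq, Subtype.mk.injEq] at hab
    obtain ⟨h1, h2⟩ := hab
    refine Subtype.ext (signVec_injective ?_)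
    have hW : (fun i => ((signVec a.1 i : ℤ) : ℚ) - (signVec b.1 i : ℤ)) ∈ W := by
      have := W.sub_mem (hyW a.1 a.2) (hyW b.1 b.2)
      convert this using 1
      funext i
      simp [h1]
    have h0 := hz _ hW fun i hi => by
      have := congrFun h2 ⟨i, hi⟩
      simp only at this
      simp [signVec, this]
    funext i
    have := congrFun h0 i
    simp only [Pi.zero_apply, sub_eq_zero] at this
    exact_mod_cast this
  refine (Nat.card_le_card_of_injective f hf).trans ?_
  simp only [Nat.card_eq_fintype_card, Fintype.card_prod, Fintype.card_fun, Fintype.card_coe,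
    Fintype.card_bool]
  exact Nat.mul_le_mul_left _ (Nat.pow_le_pow_right two_pos (hI.trans hr))

/-- Independent vectors are completed to a basis by columns of a nonsingular matrix. -/
lemma exists_completion {r : ℕ} (U : Matrix ι (Fin r) ℤ) (B : Matrix ι ι ℤ) (hB : B.det ≠ 0)
    (hU : Function.Injective (toQ U).mulVec) :
    ∃ (j : ℕ) (s : Fin j → ι), r + j = Fintype.card ι ∧
      Function.Injective (toQ (fromCols U (B.submatrix id s))).mulVec := by
  classical
  set v : Fin r ⊕ ι → ι → ℚ := fun c i => toQ (fromCols U B) i c with hv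
  have hs : LinearIndepOn ℚ v (Set.range Sum.inl) := by
    refine (linearIndepOn_range_iff Sum.inl_injective v).2 ?_
    exact mulVec_injective_iff.1 hU
  obtain ⟨b, -, hb1, hb2, hb3⟩ := exists_linearIndepOn_extension hs (Set.subset_univ _)
  set J : Finset ι := univ.filter fun i => Sum.inr i ∈ b
  let s : Fin J.card → ι := fun c => (J.equivFin.symm c).1
  let φ : Fin r ⊕ Fin J.card → b := Sum.elim (fun c => ⟨Sum.inl c, hb1 ⟨c, rfl⟩⟩)
    fun c => ⟨Sum.inr (s c), (mem_filter.1 (J.equivFin.symm c).2).2⟩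
  have hφ : Function.Bijective φ := by
    constructor
    · rintro (a | a) (c | c) h <;> simp [φ, Subtype.ext_iff, s] at h ⊢ <;> exact h
    · rintro ⟨a | a, ha⟩
      · exact ⟨Sum.inl a, rfl⟩
      · refine ⟨Sum.inr (J.equivFin ⟨a, mem_filter.2 ⟨mem_univ _, ha⟩⟩), ?_⟩
        simp [φ, s]
  have hcol : Function.Injective (toQ (fromCols U (B.submatrix id s))).mulVec := by
    rw [mulVec_injective_iff]
    have := hb3.comp φ hφ.1
    have e : (toQ (fromCols U (B.submatrix id s))).col = (fun x : b => v x) ∘ φ := by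
      funext c i
      rcases c with c | c <;> rfl
    rw [e]
    exact this
  refine ⟨J.card, s, ?_, hcol⟩
  have hle := (mulVec_injective_iff.1 hcol).fintype_card_le_finrank
  simp only [Fintype.card_sum, Fintype.card_fin, Module.finrank_fintype_fun_eq_card] at hle
  refine le_antisymm hle ?_
  have htop : (⊤ : Submodule ℚ (ι → ℚ)) ≤ Submodule.span ℚ (v '' b) := by
    have hBu : IsUnit (toQ B) := by
      rw [isUnit_iff_isUnit_det, isUnit_iff_ne_zero]
      have : (toQ B).det = ((B.det : ℤ) : ℚ) := ((Int.castRingHom ℚ).map_det B).symm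
      rw [this]
      exact_mod_cast hB
    have h1 : Submodule.span ℚ (Set.range fun i => v (Sum.inr i)) = ⊤ := by
      have h2 : LinearMap.range (toQ B).mulVecLin = ⊤ :=
        LinearMap.range_eq_top.2 (mulVec_surjective_iff_isUnit.2 hBu)
      rw [range_mulVecLin] at h2
      exact h2
    rw [← h1, Submodule.span_le]
    rintro _ ⟨i, rfl⟩
    exact hb2 ⟨Sum.inr i, trivial, rfl⟩
  have hfin : Module.finrank ℚ (Submodule.span ℚ (v '' b)) ≤ r + J.card := by
    have e : v '' b = Set.range fun c => v (φ c).1 := by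
      ext u
      constructor
      · rintro ⟨a, ha, rfl⟩
        obtain ⟨c, hc⟩ := hφ.2 ⟨a, ha⟩
        exact ⟨c, by simp [hc]⟩
      · rintro ⟨c, rfl⟩
        exact ⟨_, (φ c).2, rfl⟩
    rw [e]
    exact (finrank_range_le_card _).trans (by simp)
  rw [top_le_iff.1 htop, finrank_top, Module.finrank_fintype_fun_eq_card] at hfin
  exact hfin

omit [Fintype ι] [DecidableEq ι] in
/-- The size conditions on the order used by the atom bound. -/
lemma atom_asymptotics (C : ℝ) (k : ℕ) (η : ℝ) (hη : 0 < η) :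
    ∃ N : ℕ, 2 ≤ N ∧ ∀ m : ℕ, N ≤ m → 1 ≤ Real.log ((m : ℝ) + 2) ∧
      C * Real.log ((m : ℝ) + 2) ^ k *
          ((m : ℝ) / (Real.log ((m : ℝ) + 2) ^ (k + 1)) ^ 2 + 1) ≤ η * m ∧
      Real.log 2 + 2 * (m : ℝ) * Real.log (Real.log ((m : ℝ) + 2) ^ (k + 1)) ≤
        η * m * Real.log m := by
  set K := |C| + 1 with hK
  have hK1 : 1 ≤ K := by linarith [abs_nonneg C]
  set η₂ := η / (8 * (k + 1)) with hη₂
  have hη₂0 : 0 < η₂ := by positivity
  have h1 := (Real.isLittleO_pow_log_id_atTop (n := k)).def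
    (show 0 < η / (4 * K) by positivity)
  have h2 := Real.isLittleO_log_id_atTop.def hη₂0
  obtain ⟨a₁, ha₁⟩ := Filter.eventually_atTop.1 h1
  obtain ⟨a₂, ha₂⟩ := Filter.eventually_atTop.1 h2
  set L₀ := max (max a₂ 1) (max (2 * K / η) (4 * Real.log 2 / η))
  obtain ⟨N, hN⟩ := exists_nat_ge (max (max a₁ 2) (Real.exp L₀))
  simp only [max_le_iff] at hN
  refine ⟨N, by exact_mod_cast hN.1.2, fun m hm => ?_⟩
  have hm' : (N : ℝ) ≤ m := by exact_mod_cast hm
  have hm2 : (2 : ℝ) ≤ m := hN.1.2.trans hm'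
  set L := Real.log ((m : ℝ) + 2) with hL
  have hLL : L₀ ≤ L := by
    rw [hL, ← Real.log_exp L₀]
    exact Real.log_le_log (Real.exp_pos _) (by linarith [hN.2])
  simp only [L₀, max_le_iff] at hLL
  obtain ⟨⟨hLa, hL1⟩, hL2, hL3⟩ := hLL
  refine ⟨hL1, ?_, ?_⟩
  · have hp := ha₁ ((m : ℝ) + 2) (by linarith [hN.1.1])
    rw [Real.norm_eq_abs, Real.norm_eq_abs, id, ← hL, abs_of_nonneg (by positivity),
      abs_of_nonneg (by positivity)] at hp
    have hp' : K * L ^ k ≤ η / 2 * m := by
      have := mul_le_mul_of_nonneg_left hp (show 0 ≤ K by linarith)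
      rw [show K * (η / (4 * K) * ((m : ℝ) + 2)) = η / 4 * (m + 2) by field_simp] at this
      nlinarith
    have hq : K * L ^ k * ((m : ℝ) / (L ^ (k + 1)) ^ 2) ≤ η / 2 * m := by
      have e : K * L ^ k * ((m : ℝ) / (L ^ (k + 1)) ^ 2) = (K / L ^ (k + 2)) * m := by
        field_simp
        ring
      rw [e]
      refine mul_le_mul_of_nonneg_right ?_ (by linarith)
      rw [div_le_iff₀ (by positivity)]
      have h3 : 2 * K ≤ η * L := by
        rw [div_le_iff₀ hη] at hL2; linarith
      have h4 : L ≤ L ^ (k + 2) := le_self_pow₀ hL1 (by omega)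
      nlinarith [mul_le_mul_of_nonneg_left h4 hη.le]
    calc C * L ^ k * ((m : ℝ) / (L ^ (k + 1)) ^ 2 + 1)
        ≤ K * L ^ k * ((m : ℝ) / (L ^ (k + 1)) ^ 2 + 1) := by
          refine mul_le_mul_of_nonneg_right (mul_le_mul_of_nonneg_right ?_ (by positivity))
            (by positivity)
          linarith [le_abs_self C]
      _ = K * L ^ k * ((m : ℝ) / (L ^ (k + 1)) ^ 2) + K * L ^ k := by ring
      _ ≤ η * m := by linarith
  · have hl := ha₂ L hLa
    rw [Real.norm_eq_abs, Real.norm_eq_abs, id, abs_of_nonneg (Real.log_nonneg hL1),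
      abs_of_nonneg (by linarith)] at hl
    have hLm : L ≤ 2 * Real.log m := by
      rw [hL, show 2 * Real.log m = Real.log ((m : ℝ) ^ 2) by rw [Real.log_pow]; norm_num]
      exact Real.log_le_log (by linarith) (by nlinarith)
    have hLg : 0 ≤ Real.log (m : ℝ) := Real.log_nonneg (by linarith)
    rw [Real.log_pow]
    push_cast
    have h3 : ((k : ℝ) + 1) * Real.log L ≤ η / 4 * Real.log m := by
      have := mul_le_mul_of_nonneg_left hl (show (0 : ℝ) ≤ k + 1 by positivity)
      rw [show ((k : ℝ) + 1) * (η₂ * L) = η / 8 * L by rw [hη₂]; field_simp] at this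
      nlinarith [mul_le_mul_of_nonneg_left hLm (show 0 ≤ η / 8 by linarith)]
    have h4 : Real.log 2 ≤ η / 2 * m * Real.log m := by
      have h5 : 4 * Real.log 2 ≤ η * L := by
        rw [div_le_iff₀ hη] at hL3; linarith
      nlinarith [mul_le_mul_of_nonneg_left hLm hη.le,
        mul_le_mul_of_nonneg_right hm2 (mul_nonneg hη.le hLg)]
    nlinarith [mul_le_mul_of_nonneg_left h3 (show (0 : ℝ) ≤ 2 * m by linarith)]

end Vale.Agent.P160R
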